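import Vale.Agent.P196.H513.Flux

/-!
# P196, cutting: interface between the concrete part (groups at level `m` and the factorisation of
trivial words with zero flux) and the group-theoretic part (perfect lifts in a central extension).
-/

namespace Vale.Agent.P196.H700

open Equiv Vale.Agent.P196.S0 Vale.Agent.P196.H513

/-- `P` is the image of a product of at most `b` alternating groups of finite sets with at least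
`8` elements, under an injective homomorphism. -/
def IsAltProd {A : Type*} [Group A] (b : ℕ) (P : Subgroup A) : Prop :=
  ∃ (T : Type) (_ : Fintype T) (Mt : T → Type) (_ : ∀ t, Fintype (Mt t))
    (_ : ∀ t, DecidableEq (Mt t)) (j : ((t : T) → alternatingGroup (Mt t)) →* A),
    Fintype.card T ≤ b ∧ (∀ t, 8 ≤ Fintype.card (Mt t)) ∧ Function.Injective j ∧ j.range = P

/-- The groups of one level. -/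
structure Lvl (A : Type*) [Group A] where
  V : Subgroup A
  R : Subgroup A
  F : Subgroup A
  Z : Subgroup A
  S : Subgroup A
  Q : Subgroup A
  RS : Subgroup A
  Vo : Subgroup A
  sigV : Set A
  sigR : Set A
  sigF : Set A

/-- The properties of the groups of one level. -/
structure Lvl.Ok {A : Type*} [Group A] (𝒢 : Lvl A) (G : Subgroup A) (b : ℕ) : Prop where
  V_le : 𝒢.V ≤ G
  R_le : 𝒢.R ≤ G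
  F_le : 𝒢.F ≤ G
  Z_V : 𝒢.Z ≤ 𝒢.V
  Z_F : 𝒢.Z ≤ 𝒢.F
  S_V : 𝒢.S ≤ 𝒢.V
  S_R : 𝒢.S ≤ 𝒢.R
  Q_R : 𝒢.Q ≤ 𝒢.R
  Q_F : 𝒢.Q ≤ 𝒢.F
  RS_R : 𝒢.RS ≤ 𝒢.R
  Vo_V : 𝒢.Vo ≤ 𝒢.V
  comm : ∀ x ∈ 𝒢.Vo, ∀ y ∈ 𝒢.RS, x * y = y * x
  V_perf : ⁅𝒢.V, 𝒢.V⁆ = 𝒢.V
  R_perf : ⁅𝒢.R, 𝒢.R⁆ = 𝒢.R
  F_perf : ⁅𝒢.F, 𝒢.F⁆ = 𝒢.F
  Z_perf : ⁅𝒢.Z, 𝒢.Z⁆ = 𝒢.Z
  S_perf : ⁅𝒢.S, 𝒢.S⁆ = 𝒢.S
  Q_perf : ⁅𝒢.Q, 𝒢.Q⁆ = 𝒢.Q
  RS_perf : ⁅𝒢.RS, 𝒢.RS⁆ = 𝒢.RS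
  Vo_perf : ⁅𝒢.Vo, 𝒢.Vo⁆ = 𝒢.Vo
  V_alt : IsAltProd b 𝒢.V
  R_alt : IsAltProd b 𝒢.R
  F_alt : IsAltProd b 𝒢.F
  sigV_sub : 𝒢.sigV ⊆ 𝒢.Vo
  sigR_sub : 𝒢.sigR ⊆ 𝒢.R
  sigF_sub : 𝒢.sigF ⊆ 𝒢.F
  sigV_fin : 𝒢.sigV.Finite
  sigR_fin : 𝒢.sigR.Finite
  sigF_fin : 𝒢.sigF.Finite
  sigV_card : 𝒢.sigV.ncard ≤ b
  sigR_card : 𝒢.sigR.ncard ≤ b
  sigF_card : 𝒢.sigF.ncard ≤ b

variable {ι : Type*} [Fintype ι] [DecidableEq ι]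

/-- Decomposition of the word `w` at a level: base regions `DV i`, `DR i`, `DF i` of the `i`-th
letter, and the factorisation of the three products. -/
def Lvl.Dec (𝒢 : Lvl (Perm (Z2 × ι))) (w : List (Letter ι)) : Prop :=
  ∃ DV DR DF : ℕ → Set Z2,
    (∀ i, Disjoint (DV i) (DR i) ∧ Disjoint (DV i) (DF i) ∧ Disjoint (DR i) (DF i) ∧
      DV i ∪ DR i ∪ DF i = Set.univ) ∧
    (∀ i (hi : i < w.length), ∀ a ∈ alternatingGroup ι,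
      X w[i].σ (w[i].E ∩ DV i) a ∈ 𝒢.V ∧ X w[i].σ (w[i].E ∩ DR i) a ∈ 𝒢.RS ∧
        X w[i].σ (w[i].E ∩ DF i) a ∈ 𝒢.F) ∧
    (∀ i k (hi : i < w.length) (hk : k < w.length), k ≤ i →
      ∀ a ∈ alternatingGroup ι, ∀ c ∈ alternatingGroup ι,
      Commute (X w[i].σ (w[i].E ∩ DV i) a) (X w[k].σ (w[k].E ∩ DR k) c) ∧
      Commute (X w[i].σ (w[i].E ∩ DV i) a) (X w[k].σ (w[k].E ∩ DF k) c) ∧
      Commute (X w[i].σ (w[i].E ∩ DR i) a) (X w[k].σ (w[k].E ∩ DF k) c)) ∧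
    ∃ κ ∈ 𝒢.Z, ∃ u ∈ 𝒢.S, ∃ q ∈ 𝒢.Q, ∃ sV ∈ 𝒢.sigV, ∃ sR ∈ 𝒢.sigR, ∃ sF ∈ 𝒢.sigF,
      κ⁻¹ * wd w DV = u * sV ∧ u * wd w DR = q * sR ∧ wd w DF * κ = sF⁻¹ * q⁻¹

/-- **What the assembly needs from the concrete part.** -/
def CutInput (ι : Type*) [Fintype ι] [DecidableEq ι] (LS : Set (Set Z2)) : Prop :=
  ∃ (b : ℕ) (𝒢 : ℕ → Lvl (Perm (Z2 × ι))), (∀ m, (𝒢 m).Ok (grp ι LS) b) ∧
    ∀ w : List (Letter ι), (∀ l ∈ w, l.E ∈ LS ∧ l.a ∈ alternatingGroup ι) →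
      wprod w = 1 → flux w = 0 → ∃ m0, ∀ m, m0 ≤ m → (𝒢 m).Dec w

end Vale.Agent.P196.H700
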