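import Vale.Agent.P196.H700.Words
import Vale.Agent.P196.H513.Pigeon
import Vale.Agent.P196.H798.KernelBound

/-!
# P196, Theorem S: perfect central extensions of the group have finitely generated kernel
-/

namespace Vale.Agent.P196.H700

open Equiv Vale.Agent.P196.S0 Vale.Agent.P196.H513 Vale.Agent.P196.Cut

variable {ι : Type*} [Fintype ι] [DecidableEq ι] {LS : Set (Set Z2)}

/-- Kernel bound for the perfect lift of a product of alternating groups. -/
theorem bound_of_isAltProd {P : Type*} [Group P] {G : Subgroup P} {H : Type*} [Group H]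
    (π : H →* G) (hs : Function.Surjective π) (hK : π.ker ≤ Subgroup.center H) {b : ℕ}
    {V : Subgroup P} (hV : V ≤ G) (h : IsAltProd b V) :
    (((G.subtype.comp π).ker ⊓ lift (G.subtype.comp π) V : Subgroup H) : Set H).Finite ∧
    (((G.subtype.comp π).ker ⊓ lift (G.subtype.comp π) V : Subgroup H) : Set H).ncard ≤ 4 ^ b := by
  classical
  obtain ⟨T, iT, Mt, iM, iD, j, hT, hM, hj, hr⟩ := h
  have hjG : ∀ x, j x ∈ G := fun x => hV (hr ▸ ⟨x, rfl⟩)
  let j' : ((t : T) → alternatingGroup (Mt t)) →* G := j.codRestrict G hjG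
  have hj' : Function.Injective j' := by
    intro x y hxy
    exact hj (congrArg Subtype.val hxy)
  have hker : (G.subtype.comp π).ker = π.ker := by
    ext x
    simp [MonoidHom.mem_ker]
  have hcomap : V.comap (G.subtype.comp π) = j'.range.comap π := by
    ext x
    rw [Subgroup.mem_comap, Subgroup.mem_comap, ← hr]
    constructor
    · rintro ⟨y, hy⟩
      exact ⟨y, Subtype.ext hy⟩
    · rintro ⟨y, hy⟩
      exact ⟨y, congrArg Subtype.val hy⟩
  have hlift : lift (G.subtype.comp π) V = ⁅j'.range.comap π, j'.range.comap π⁆ := by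
    rw [lift, hcomap]
  rw [hker, hlift]
  have hb := H798.kernel_bound π hK hs j' hM hj'
  refine ⟨hb.1, ?_⟩
  have h2 := hb.2
  rw [← Nat.card_coe_set_eq]
  exact h2.trans (Nat.pow_le_pow_right (by norm_num) hT)

/-- **Theorem S** (from the concrete cutting input). -/
theorem ker_fg (hι : 5 ≤ Fintype.card ι) (hu : Set.univ ∈ LS) (hcut : CutInput ι LS)
    {H : Type*} [Group H] (π : H →* grp ι LS) (hs : Function.Surjective π)
    (hK : π.ker ≤ Subgroup.center H) (hp : commutator H = ⊤) : π.ker.FG := by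
  classical
  set π' : H →* Perm (Z2 × ι) := (grp ι LS).subtype.comp π with hπ'
  have hker : π'.ker = π.ker := by
    ext x
    simp [hπ', MonoidHom.mem_ker]
  have hrange : π'.range = grp ι LS := by
    rw [hπ', MonoidHom.range_comp, MonoidHom.range_eq_top.2 hs, ← MonoidHom.range_eq_map,
      Subgroup.range_subtype]
  have hK' : π'.ker ≤ Subgroup.center H := by rw [hker]; exact hK
  obtain ⟨b, 𝒢, hok, hdec⟩ := hcut
  rw [← hker]
  refine ker_fg_letters π' (Good π' LS) ?_ (fun g l hg => hg.2.2.2) ?_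
    (b * b * b * (4 ^ b * 4 ^ b * 4 ^ b)) ?_
  · rintro g l ⟨h1, h2, h3, h4⟩
    refine ⟨h1, inv_mem h2, inv_mem h3, ?_⟩
    rw [map_inv, h4, X_inv]
    rfl
  · -- generation
    rw [eq_top_iff]
    have htop := iSup_lift_eq_top hK' hp (κ := (ι → Z2) × LS)
      (fun q => (alternatingGroup ι).map (ltr q.1 q.2.1)) ?_ ?_ ?_
    · rw [← htop]
      refine iSup_le fun q => ?_
      intro g hg
      apply Subgroup.subset_closure
      obtain ⟨a, ha, hag⟩ := lift_le_comap _ hg
      exact ⟨⟨q.1, q.2.1, a⟩, q.2.2, ha, hg, hag.symm⟩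
    · intro q
      rw [hrange]
      rintro _ ⟨a, ha, rfl⟩
      exact ltr_mem hι _ q.2.2 ha
    · intro q
      rw [← Subgroup.map_commutator, commutator_alternatingGroup_eq_self
        (by rwa [Nat.card_eq_fintype_card])]
    · rw [hrange, grp_eq_closure_letters hι hu, Subgroup.closure_le]
      rintro _ ⟨σ, E, hE, a, ha, rfl⟩
      exact Subgroup.mem_iSup_of_mem
        (S := fun q : (ι → Z2) × LS => (alternatingGroup ι).map (ltr q.1 q.2.1))
        (σ, ⟨E, hE⟩) ⟨a, ha, rfl⟩
  · -- bounded values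
    intro ws hws
    have hm : ∀ w ∈ ws, ∃ m0, ∀ m, m0 ≤ m → (𝒢 m).Dec (w.map Prod.snd) := by
      intro w hw
      obtain ⟨h1, h2, h3⟩ := hws w hw
      refine hdec _ ?_ h2 h3
      intro l hl
      obtain ⟨x, hx, rfl⟩ := List.mem_map.1 hl
      exact ⟨(h1 x hx).1, (h1 x hx).2.1⟩
    choose! m0 hm0 using hm
    set m := ws.sup m0 with hmdef
    have hok' : (𝒢 m).Ok π'.range b := by
      rw [hrange]
      exact hok m
    have hok2 := hok m
    obtain ⟨W, hW, hWc, hWm⟩ := exists_bounded hK' (𝒢 m) b (4 ^ b) hok'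
      (bound_of_isAltProd π hs hK hok2.V_le hok2.V_alt)
      (bound_of_isAltProd π hs hK hok2.R_le hok2.R_alt)
      (bound_of_isAltProd π hs hK hok2.F_le hok2.F_alt)
    refine ⟨W, hW, hWc, ?_⟩
    intro w hw
    obtain ⟨h1, h2, h3⟩ := hws w hw
    obtain ⟨DV, DR, DF, hpart, hmem, hcomm, hfact⟩ := hm0 w hw m (Finset.le_sup hw)
    obtain ⟨v, hv, e, he, f, hf, hwv, k1, k2, k3, -, -⟩ := split_word hι hK' hok'.V_le
      (hok'.RS_R.trans hok'.R_le) hok'.F_le w h1 DV DR DF hpart
      (fun i hi => ⟨by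
          rintro _ ⟨a, ha, rfl⟩
          exact (hmem i hi a ha).1, by
          rintro _ ⟨a, ha, rfl⟩
          exact (hmem i hi a ha).2.1, by
          rintro _ ⟨a, ha, rfl⟩
          exact (hmem i hi a ha).2.2⟩)
      (fun i k hi hk hki => ⟨by
          rintro _ ⟨a, ha, rfl⟩ _ ⟨c, hc, rfl⟩
          exact (hcomm i k hi hk hki a ha c hc).1, by
          rintro _ ⟨a, ha, rfl⟩ _ ⟨c, hc, rfl⟩
          exact (hcomm i k hi hk hki a ha c hc).2.1, by
          rintro _ ⟨a, ha, rfl⟩ _ ⟨c, hc, rfl⟩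
          exact (hcomm i k hi hk hki a ha c hc).2.2⟩)
    rw [hwv]
    apply hWm v hv e he f hf
    · rw [← hwv, map_list_prod, List.map_map]
      rw [wprod_eq, List.map_map] at h2
      rw [← h2]
      congr 1
      apply List.map_congr_left
      intro x hx
      exact (h1 x hx).2.2.2
    · rw [k1, k2, k3]
      exact hfact

end Vale.Agent.P196.H700
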