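import Vale.Agent.P196.H700.Lift
import Vale.Agent.P196.H700.Input

/-!
# P196: the values of factorised trivial words lie in a set of bounded size
-/

namespace Vale.Agent.P196.H700

variable {E P : Type*} [Group E] [Group P] {π : E →* P}

/-- **Bounded set of values.** -/
theorem exists_bounded (hK : π.ker ≤ Subgroup.center E) (𝒢 : Lvl P) (b c : ℕ)
    (h𝒢 : 𝒢.Ok π.range b)
    (hV : ((π.ker ⊓ lift π 𝒢.V : Subgroup E) : Set E).Finite ∧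
      ((π.ker ⊓ lift π 𝒢.V : Subgroup E) : Set E).ncard ≤ c)
    (hR : ((π.ker ⊓ lift π 𝒢.R : Subgroup E) : Set E).Finite ∧
      ((π.ker ⊓ lift π 𝒢.R : Subgroup E) : Set E).ncard ≤ c)
    (hF : ((π.ker ⊓ lift π 𝒢.F : Subgroup E) : Set E).Finite ∧
      ((π.ker ⊓ lift π 𝒢.F : Subgroup E) : Set E).ncard ≤ c) :
    ∃ W : Set E, W.Finite ∧ W.ncard ≤ b * b * b * (c * c * c) ∧
      ∀ v ∈ lift π 𝒢.V, ∀ e ∈ lift π 𝒢.RS, ∀ f ∈ lift π 𝒢.F, π (v * e * f) = 1 →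
        (∃ κ ∈ 𝒢.Z, ∃ u ∈ 𝒢.S, ∃ q ∈ 𝒢.Q, ∃ sV ∈ 𝒢.sigV, ∃ sR ∈ 𝒢.sigR, ∃ sF ∈ 𝒢.sigF,
          κ⁻¹ * π v = u * sV ∧ u * π e = q * sR ∧ π f * κ = sF⁻¹ * q⁻¹) → v * e * f ∈ W := by
  classical
  -- fixed lifts of the elements of the sign sets
  have hVo : 𝒢.Vo ≤ π.range := h𝒢.Vo_V.trans h𝒢.V_le
  have cVex : ∀ s : P, ∃ y : E, s ∈ 𝒢.sigV → y ∈ lift π 𝒢.Vo ∧ π y = s := by
    intro s
    by_cases hs : s ∈ 𝒢.sigV
    · obtain ⟨y, hy, hys⟩ := exists_lift hVo h𝒢.Vo_perf (h𝒢.sigV_sub hs)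
      exact ⟨y, fun _ => ⟨hy, hys⟩⟩
    · exact ⟨1, fun h => absurd h hs⟩
  have cRex : ∀ s : P, ∃ y : E, s ∈ 𝒢.sigR → y ∈ lift π 𝒢.R ∧ π y = s := by
    intro s
    by_cases hs : s ∈ 𝒢.sigR
    · obtain ⟨y, hy, hys⟩ := exists_lift h𝒢.R_le h𝒢.R_perf (h𝒢.sigR_sub hs)
      exact ⟨y, fun _ => ⟨hy, hys⟩⟩
    · exact ⟨1, fun h => absurd h hs⟩
  have cFex : ∀ s : P, ∃ y : E, s ∈ 𝒢.sigF → y ∈ lift π 𝒢.F ∧ π y = s := by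
    intro s
    by_cases hs : s ∈ 𝒢.sigF
    · obtain ⟨y, hy, hys⟩ := exists_lift h𝒢.F_le h𝒢.F_perf (h𝒢.sigF_sub hs)
      exact ⟨y, fun _ => ⟨hy, hys⟩⟩
    · exact ⟨1, fun h => absurd h hs⟩
  choose cV hcV using cVex
  choose cR hcR using cRex
  choose cF hcF using cFex
  set KV : Set E := ((π.ker ⊓ lift π 𝒢.V : Subgroup E) : Set E) with hKV
  set KR : Set E := ((π.ker ⊓ lift π 𝒢.R : Subgroup E) : Set E) with hKR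
  set KF : Set E := ((π.ker ⊓ lift π 𝒢.F : Subgroup E) : Set E) with hKF
  set D : Set (((P × P) × P) × ((E × E) × E)) :=
    ((𝒢.sigV ×ˢ 𝒢.sigR) ×ˢ 𝒢.sigF) ×ˢ ((KV ×ˢ KR) ×ˢ KF) with hD
  set Φ : (((P × P) × P) × ((E × E) × E)) → E :=
    fun x => cR x.1.1.2 * cV x.1.1.1 * (cF x.1.2)⁻¹ * (x.2.1.1 * x.2.1.2 * x.2.2) with hΦ
  have hDfin : D.Finite := ((h𝒢.sigV_fin.prod h𝒢.sigR_fin).prod h𝒢.sigF_fin).prod
    ((hV.1.prod hR.1).prod hF.1)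
  have hDcard : D.ncard ≤ b * b * b * (c * c * c) := by
    rw [hD, Set.ncard_prod, Set.ncard_prod, Set.ncard_prod, Set.ncard_prod, Set.ncard_prod]
    exact Nat.mul_le_mul (Nat.mul_le_mul (Nat.mul_le_mul h𝒢.sigV_card h𝒢.sigR_card)
      h𝒢.sigF_card) (Nat.mul_le_mul (Nat.mul_le_mul hV.2 hR.2) hF.2)
  refine ⟨Φ '' D, hDfin.image _, (Set.ncard_image_le hDfin).trans hDcard, ?_⟩
  rintro v hv e he f hf h1 ⟨κ, hκ, u, hu, q, hq, sV, hsV, sR, hsR, sF, hsF, e1, e2, e3⟩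
  obtain ⟨κ', hκ', hκπ⟩ := exists_lift (h𝒢.Z_V.trans h𝒢.V_le) h𝒢.Z_perf hκ
  obtain ⟨u', hu', huπ⟩ := exists_lift (h𝒢.S_V.trans h𝒢.V_le) h𝒢.S_perf hu
  obtain ⟨q', hq', hqπ⟩ := exists_lift (h𝒢.Q_R.trans h𝒢.R_le) h𝒢.Q_perf hq
  obtain ⟨hsV1, hsV2⟩ := hcV sV hsV
  obtain ⟨hsR1, hsR2⟩ := hcR sR hsR
  obtain ⟨hsF1, hsF2⟩ := hcF sF hsF
  -- the three kernel elements
  have hz1 : (u' * cV sV)⁻¹ * (κ'⁻¹ * v) ∈ (π.ker ⊓ lift π 𝒢.V : Subgroup E) := by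
    rw [Subgroup.mem_inf]
    refine ⟨?_, ?_⟩
    · rw [MonoidHom.mem_ker]
      simp only [map_mul, map_inv, huπ, hsV2, hκπ]
      rw [e1]
      group
    · exact mul_mem (inv_mem (mul_mem (lift_mono h𝒢.S_V hu') (lift_mono h𝒢.Vo_V hsV1)))
        (mul_mem (inv_mem (lift_mono h𝒢.Z_V hκ')) hv)
  have hz2 : (q' * cR sR)⁻¹ * (u' * e) ∈ (π.ker ⊓ lift π 𝒢.R : Subgroup E) := by
    rw [Subgroup.mem_inf]
    refine ⟨?_, ?_⟩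
    · rw [MonoidHom.mem_ker]
      simp only [map_mul, map_inv, huπ, hsR2, hqπ]
      rw [e2]
      group
    · exact mul_mem (inv_mem (mul_mem (lift_mono h𝒢.Q_R hq') hsR1))
        (mul_mem (lift_mono h𝒢.S_R hu') (lift_mono h𝒢.RS_R he))
  have hz3 : ((cF sF)⁻¹ * q'⁻¹)⁻¹ * (f * κ') ∈ (π.ker ⊓ lift π 𝒢.F : Subgroup E) := by
    rw [Subgroup.mem_inf]
    refine ⟨?_, ?_⟩
    · rw [MonoidHom.mem_ker]
      simp only [map_mul, map_inv, hκπ, hsF2, hqπ]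
      rw [e3]
      group
    · exact mul_mem (inv_mem (mul_mem (inv_mem hsF1) (inv_mem (lift_mono h𝒢.Q_F hq'))))
        (mul_mem hf (lift_mono h𝒢.Z_F hκ'))
  refine ⟨(((sV, sR), sF), (((u' * cV sV)⁻¹ * (κ'⁻¹ * v), (q' * cR sR)⁻¹ * (u' * e)),
    ((cF sF)⁻¹ * q'⁻¹)⁻¹ * (f * κ'))), ⟨⟨⟨hsV, hsR⟩, hsF⟩, ⟨⟨hz1, hz2⟩, hz3⟩⟩, ?_⟩
  simp only [hΦ]
  -- centrality
  have c1 := Subgroup.mem_center_iff.1 (hK (Subgroup.mem_inf.1 hz1).1)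
  have c2 := Subgroup.mem_center_iff.1 (hK (Subgroup.mem_inf.1 hz2).1)
  have c3 := Subgroup.mem_center_iff.1 (hK (Subgroup.mem_inf.1 hz3).1)
  have ck := Subgroup.mem_center_iff.1 (hK (show v * e * f ∈ π.ker from h1))
  have hcomm : cV sV * e = e * cV sV :=
    lift_comm_comap hK h𝒢.comm hsV1 (lift_le_comap _ he)
  set z1 := (u' * cV sV)⁻¹ * (κ'⁻¹ * v) with hz1d
  set z2 := (q' * cR sR)⁻¹ * (u' * e) with hz2d
  set z3 := ((cF sF)⁻¹ * q'⁻¹)⁻¹ * (f * κ') with hz3d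
  have d1 : κ'⁻¹ * v = u' * cV sV * z1 := by rw [hz1d]; group
  have d2 : u' * e = q' * cR sR * z2 := by rw [hz2d]; group
  have d3 : f * κ' = (cF sF)⁻¹ * q'⁻¹ * z3 := by rw [hz3d]; group
  have k1 : v * e * f = κ'⁻¹ * (v * e * f) * κ' := by
    rw [ck κ'⁻¹]
    group
  have k2 : κ'⁻¹ * (v * e * f) * κ' = q' * (cR sR * cV sV * (cF sF)⁻¹) * q'⁻¹ *
      (z1 * z2 * z3) := by
    calc κ'⁻¹ * (v * e * f) * κ' = (κ'⁻¹ * v) * e * (f * κ') := by group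
      _ = (u' * cV sV * z1) * e * ((cF sF)⁻¹ * q'⁻¹ * z3) := by rw [d1, d3]
      _ = u' * cV sV * (z1 * e) * ((cF sF)⁻¹ * q'⁻¹ * z3) := by group
      _ = u' * cV sV * (e * z1) * ((cF sF)⁻¹ * q'⁻¹ * z3) := by rw [c1 e]
      _ = u' * (cV sV * e) * z1 * ((cF sF)⁻¹ * q'⁻¹ * z3) := by group
      _ = u' * (e * cV sV) * z1 * ((cF sF)⁻¹ * q'⁻¹ * z3) := by rw [hcomm]
      _ = (u' * e) * cV sV * z1 * ((cF sF)⁻¹ * q'⁻¹ * z3) := by group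
      _ = (q' * cR sR * z2) * cV sV * z1 * ((cF sF)⁻¹ * q'⁻¹ * z3) := by rw [d2]
      _ = q' * cR sR * (z2 * (cV sV * z1 * ((cF sF)⁻¹ * q'⁻¹))) * z3 := by group
      _ = q' * cR sR * (cV sV * z1 * ((cF sF)⁻¹ * q'⁻¹) * z2) * z3 := by rw [c2]
      _ = q' * cR sR * cV sV * (z1 * ((cF sF)⁻¹ * q'⁻¹)) * z2 * z3 := by group
      _ = q' * cR sR * cV sV * (((cF sF)⁻¹ * q'⁻¹) * z1) * z2 * z3 := by rw [c1]
      _ = _ := by group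
  set k := v * e * f with hk
  set m := cR sR * cV sV * (cF sF)⁻¹ with hm
  have k3 : k = q' * m * q'⁻¹ * (z1 * z2 * z3) := k1.trans k2
  -- `m` is central as well
  have cz : ∀ g, g * (z1 * z2 * z3) = (z1 * z2 * z3) * g := by
    intro g
    calc g * (z1 * z2 * z3) = (g * z1) * z2 * z3 := by group
      _ = (z1 * g) * z2 * z3 := by rw [c1]
      _ = z1 * (g * z2) * z3 := by group
      _ = z1 * (z2 * g) * z3 := by rw [c2]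
      _ = z1 * z2 * (g * z3) := by group
      _ = z1 * z2 * (z3 * g) := by rw [c3]
      _ = _ := by group
  have k4 : m = q'⁻¹ * (k * (z1 * z2 * z3)⁻¹) * q' := by
    rw [k3]
    group
  have k5 : q'⁻¹ * (k * (z1 * z2 * z3)⁻¹) * q' = k * (z1 * z2 * z3)⁻¹ := by
    have e1 : q'⁻¹ * k = k * q'⁻¹ := ck q'⁻¹
    have e2 : (z1 * z2 * z3)⁻¹ * q' = q' * (z1 * z2 * z3)⁻¹ := by
      rw [inv_mul_eq_iff_eq_mul, ← mul_assoc, ← cz q']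
      group
    calc q'⁻¹ * (k * (z1 * z2 * z3)⁻¹) * q' = (q'⁻¹ * k) * ((z1 * z2 * z3)⁻¹ * q') := by group
      _ = (k * q'⁻¹) * (q' * (z1 * z2 * z3)⁻¹) := by rw [e1, e2]
      _ = _ := by group
  rw [k4, k5]
  group

end Vale.Agent.P196.H700
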