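import Mathlib

/-!
# P196: perfect lifts in a central extension
-/

namespace Vale.Agent.P196.H700

open scoped commutatorElement

variable {E P : Type*} [Group E] [Group P]

/-- The perfect lift of a subgroup. -/
def lift (π : E →* P) (X : Subgroup P) : Subgroup E := ⁅X.comap π, X.comap π⁆

variable {π : E →* P}

theorem lift_mono {X Y : Subgroup P} (h : X ≤ Y) : lift π X ≤ lift π Y :=
  Subgroup.commutator_mono (Subgroup.comap_mono h) (Subgroup.comap_mono h)

theorem lift_le_comap (X : Subgroup P) : lift π X ≤ X.comap π :=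
  Subgroup.commutator_le_self _

theorem map_lift {X : Subgroup P} (hX : X ≤ π.range) : (lift π X).map π = ⁅X, X⁆ := by
  rw [lift, Subgroup.map_commutator, Subgroup.map_comap_eq_self hX]

/-- Elements of a perfect subgroup of the range lift to the perfect lift. -/
theorem exists_lift {X : Subgroup P} (hX : X ≤ π.range) (hp : ⁅X, X⁆ = X) {x : P} (hx : x ∈ X) :
    ∃ y ∈ lift π X, π y = x := by
  have h := map_lift hX
  rw [hp] at h
  rw [← h] at hx
  exact hx

/-- If `X` and `Y` commute, then the perfect lift of `X` commutes with the preimage of `Y`. -/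
theorem lift_comm_comap (hK : π.ker ≤ Subgroup.center E) {X Y : Subgroup P}
    (h : ∀ x ∈ X, ∀ y ∈ Y, x * y = y * x) {a b : E} (ha : a ∈ lift π X) (hb : b ∈ Y.comap π) :
    a * b = b * a := by
  have hXY : ⁅X.comap π, Y.comap π⁆ ≤ Subgroup.center E := by
    refine le_trans ?_ hK
    rw [Subgroup.commutator_le]
    intro g hg k hk
    rw [MonoidHom.mem_ker, map_commutatorElement, commutatorElement_eq_one_iff_mul_comm]
    exact h _ hg _ hk
  have hYX : ⁅Y.comap π, X.comap π⁆ ≤ Subgroup.center E := by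
    rw [Subgroup.commutator_comm]
    exact hXY
  have h0 : ∀ (A B : Subgroup E), A ≤ Subgroup.center E → ⁅A, B⁆ = ⊥ := by
    intro A B hA
    rw [eq_bot_iff, ← Subgroup.commutator_center_left (H := B)]
    exact Subgroup.commutator_mono hA le_rfl
  have h3 : ⁅⁅X.comap π, X.comap π⁆, Y.comap π⁆ = ⊥ :=
    Subgroup.commutator_commutator_eq_bot_of_rotate (h0 _ _ hXY) (h0 _ _ hYX)
  have h4 : ⁅a, b⁆ ∈ ⁅⁅X.comap π, X.comap π⁆, Y.comap π⁆ :=
    Subgroup.commutator_mem_commutator ha hb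
  rw [h3, Subgroup.mem_bot] at h4
  exact commutatorElement_eq_one_iff_mul_comm.1 h4

theorem lift_comm (hK : π.ker ≤ Subgroup.center E) {X Y : Subgroup P}
    (h : ∀ x ∈ X, ∀ y ∈ Y, x * y = y * x) {a b : E} (ha : a ∈ lift π X) (hb : b ∈ lift π Y) :
    a * b = b * a :=
  lift_comm_comap hK h ha (lift_le_comap Y hb)

/-- Generation by perfect lifts. -/
theorem iSup_lift_eq_top (hK : π.ker ≤ Subgroup.center E) (hE : commutator E = ⊤)
    {κ : Sort*} (X : κ → Subgroup P) (hX : ∀ k, X k ≤ π.range) (hp : ∀ k, ⁅X k, X k⁆ = X k)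
    (hsup : π.range ≤ ⨆ k, X k) : ⨆ k, lift π (X k) = ⊤ := by
  set N := ⨆ k, lift π (X k) with hN
  have h1 : π.range ≤ N.map π := by
    refine hsup.trans ?_
    rw [hN, Subgroup.map_iSup]
    refine iSup_mono fun k => ?_
    rw [map_lift (hX k), hp k]
  have h2 : ∀ g : E, ∃ n ∈ N, ∃ z ∈ Subgroup.center E, g = n * z := by
    intro g
    obtain ⟨n, hn, hng⟩ := h1 ⟨g, rfl⟩
    refine ⟨n, hn, n⁻¹ * g, hK ?_, by group⟩
    rw [MonoidHom.mem_ker, map_mul, map_inv, hng, inv_mul_cancel]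
  rw [eq_top_iff, ← hE, commutator_def, Subgroup.commutator_le]
  intro g _ k _
  obtain ⟨n, hn, z, hz, rfl⟩ := h2 g
  obtain ⟨n', hn', z', hz', rfl⟩ := h2 k
  rw [Subgroup.mem_center_iff] at hz hz'
  have h3 : ⁅n * z, n' * z'⁆ = ⁅n, n'⁆ := by
    simp only [commutatorElement_def, mul_inv_rev]
    have e1 : n * z * (n' * z') = n * n' * (z' * z) := by
      rw [mul_assoc n z, ← mul_assoc z, ← hz n', mul_assoc n', ← mul_assoc n, hz z']
    calc n * z * (n' * z') * (z⁻¹ * n⁻¹) * (z'⁻¹ * n'⁻¹)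
        = n * n' * (z' * z) * (z⁻¹ * n⁻¹) * (z'⁻¹ * n'⁻¹) := by rw [e1]
      _ = n * n' * (z' * n⁻¹) * (z'⁻¹ * n'⁻¹) := by group
      _ = n * n' * (n⁻¹ * z') * (z'⁻¹ * n'⁻¹) := by rw [hz' n⁻¹]
      _ = n * n' * n⁻¹ * n'⁻¹ := by group
  rw [h3]
  exact N.mul_mem (N.mul_mem (N.mul_mem hn hn') (N.inv_mem hn)) (N.inv_mem hn')

/-- **Splitting lemma.** If a homomorphism `j` is the product of three homomorphisms with
commuting perfect images, then the elements of the perfect lift of the image of `j` split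
accordingly. -/
theorem exists_split (hK : π.ker ≤ Subgroup.center E) {A : Type*} [Group A]
    (j j1 j2 j3 : A →* P) (hj : ∀ a, j a = j1 a * j2 a * j3 a)
    (h12 : ∀ a b, j1 a * j2 b = j2 b * j1 a) (h13 : ∀ a b, j1 a * j3 b = j3 b * j1 a)
    (h23 : ∀ a b, j2 a * j3 b = j3 b * j2 a)
    (hr1 : j1.range ≤ π.range) (hr2 : j2.range ≤ π.range) (hr3 : j3.range ≤ π.range)
    (hA : commutator A = ⊤) {g : E} (hg : g ∈ lift π j.range) :
    ∃ a : A, ∃ v ∈ lift π j1.range, ∃ e ∈ lift π j2.range, ∃ f ∈ lift π j3.range,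
      g = v * e * f ∧ π g = j a ∧ π v = j1 a ∧ π e = j2 a ∧ π f = j3 a := by
  have hperf : ∀ k : A →* P, ⁅k.range, k.range⁆ = k.range := by
    intro k
    rw [MonoidHom.range_eq_map, ← Subgroup.map_commutator, ← commutator_def, hA]
  have c12 : ∀ x ∈ lift π j1.range, ∀ y ∈ lift π j2.range, x * y = y * x := by
    intro x hx y hy
    refine lift_comm hK ?_ hx hy
    rintro _ ⟨a, rfl⟩ _ ⟨b, rfl⟩
    exact h12 a b
  have c13 : ∀ x ∈ lift π j1.range, ∀ y ∈ lift π j3.range, x * y = y * x := by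
    intro x hx y hy
    refine lift_comm hK ?_ hx hy
    rintro _ ⟨a, rfl⟩ _ ⟨b, rfl⟩
    exact h13 a b
  have c23 : ∀ x ∈ lift π j2.range, ∀ y ∈ lift π j3.range, x * y = y * x := by
    intro x hx y hy
    refine lift_comm hK ?_ hx hy
    rintro _ ⟨a, rfl⟩ _ ⟨b, rfl⟩
    exact h23 a b
  -- products and inverses of split elements
  have hmul : ∀ v ∈ lift π j1.range, ∀ e ∈ lift π j2.range, ∀ f ∈ lift π j3.range,
      ∀ v' ∈ lift π j1.range, ∀ e' ∈ lift π j2.range, ∀ f' ∈ lift π j3.range,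
      (v * e * f) * (v' * e' * f') = (v * v') * (e * e') * (f * f') := by
    intro v hv e he f hf v' hv' e' he' f' hf'
    have k1 := c12 v' hv' e he
    have k2 := c13 v' hv' f hf
    have k3 := c23 e' he' f hf
    calc (v * e * f) * (v' * e' * f') = v * e * (f * v') * e' * f' := by group
      _ = v * e * (v' * f) * e' * f' := by rw [k2]
      _ = v * (e * v') * (f * e') * f' := by group
      _ = v * (v' * e) * (e' * f) * f' := by rw [k1, k3]
      _ = _ := by group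
  have hinv : ∀ v ∈ lift π j1.range, ∀ e ∈ lift π j2.range, ∀ f ∈ lift π j3.range,
      (v * e * f)⁻¹ = v⁻¹ * e⁻¹ * f⁻¹ := by
    intro v hv e he f hf
    rw [inv_eq_iff_mul_eq_one, hmul v hv e he f hf _ (inv_mem hv) _ (inv_mem he) _ (inv_mem hf)]
    group
  rw [lift, Subgroup.commutator_def] at hg
  induction hg using Subgroup.closure_induction with
  | mem g hg =>
    obtain ⟨x, hx, y, hy, rfl⟩ := hg
    obtain ⟨s, hs⟩ := hx
    obtain ⟨t, ht⟩ := hy
    obtain ⟨x1, hx1, hx1'⟩ := exists_lift hr1 (hperf j1) (x := j1 s) ⟨s, rfl⟩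
    obtain ⟨x2, hx2, hx2'⟩ := exists_lift hr2 (hperf j2) (x := j2 s) ⟨s, rfl⟩
    obtain ⟨x3, hx3, hx3'⟩ := exists_lift hr3 (hperf j3) (x := j3 s) ⟨s, rfl⟩
    obtain ⟨y1, hy1, hy1'⟩ := exists_lift hr1 (hperf j1) (x := j1 t) ⟨t, rfl⟩
    obtain ⟨y2, hy2, hy2'⟩ := exists_lift hr2 (hperf j2) (x := j2 t) ⟨t, rfl⟩
    obtain ⟨y3, hy3, hy3'⟩ := exists_lift hr3 (hperf j3) (x := j3 t) ⟨t, rfl⟩
    have hzx : (x1 * x2 * x3)⁻¹ * x ∈ Subgroup.center E := by
      apply hK
      rw [MonoidHom.mem_ker, map_mul, map_inv, map_mul, map_mul, hx1', hx2', hx3', ← hs, hj]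
      group
    have hzy : (y1 * y2 * y3)⁻¹ * y ∈ Subgroup.center E := by
      apply hK
      rw [MonoidHom.mem_ker, map_mul, map_inv, map_mul, map_mul, hy1', hy2', hy3', ← ht, hj]
      group
    have hcom : ⁅x, y⁆ = ⁅x1 * x2 * x3, y1 * y2 * y3⁆ := by
      set z := (x1 * x2 * x3)⁻¹ * x with hz
      set z' := (y1 * y2 * y3)⁻¹ * y with hz'
      have ex : x = (x1 * x2 * x3) * z := by rw [hz]; group
      have ey : y = (y1 * y2 * y3) * z' := by rw [hz']; group
      rw [Subgroup.mem_center_iff] at hzx hzy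
      rw [ex, ey]
      generalize x1 * x2 * x3 = n at *
      generalize y1 * y2 * y3 = n' at *
      simp only [commutatorElement_def, mul_inv_rev]
      have e1 : n * z * (n' * z') = n * n' * (z' * z) := by
        rw [mul_assoc n z, ← mul_assoc z, ← hzx n', mul_assoc n', ← mul_assoc n, hzx z']
      calc n * z * (n' * z') * (z⁻¹ * n⁻¹) * (z'⁻¹ * n'⁻¹)
          = n * n' * (z' * z) * (z⁻¹ * n⁻¹) * (z'⁻¹ * n'⁻¹) := by rw [e1]
        _ = n * n' * (z' * n⁻¹) * (z'⁻¹ * n'⁻¹) := by group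
        _ = n * n' * (n⁻¹ * z') * (z'⁻¹ * n'⁻¹) := by rw [hzy n⁻¹]
        _ = n * n' * n⁻¹ * n'⁻¹ := by group
    refine ⟨⁅s, t⁆, ⁅x1, y1⁆, ?_, ⁅x2, y2⁆, ?_, ⁅x3, y3⁆, ?_, ?_, ?_, ?_, ?_, ?_⟩
    · exact (lift π j1.range).mul_mem ((lift π j1.range).mul_mem ((lift π j1.range).mul_mem hx1 hy1)
        (inv_mem hx1)) (inv_mem hy1)
    · exact (lift π j2.range).mul_mem ((lift π j2.range).mul_mem ((lift π j2.range).mul_mem hx2 hy2)
        (inv_mem hx2)) (inv_mem hy2)
    · exact (lift π j3.range).mul_mem ((lift π j3.range).mul_mem ((lift π j3.range).mul_mem hx3 hy3)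
        (inv_mem hx3)) (inv_mem hy3)
    · rw [hcom]
      simp only [commutatorElement_def]
      rw [hinv x1 hx1 x2 hx2 x3 hx3, hinv y1 hy1 y2 hy2 y3 hy3,
        hmul x1 hx1 x2 hx2 x3 hx3 y1 hy1 y2 hy2 y3 hy3,
        hmul _ (mul_mem hx1 hy1) _ (mul_mem hx2 hy2) _ (mul_mem hx3 hy3) _ (inv_mem hx1) _
          (inv_mem hx2) _ (inv_mem hx3),
        hmul _ (mul_mem (mul_mem hx1 hy1) (inv_mem hx1)) _
          (mul_mem (mul_mem hx2 hy2) (inv_mem hx2)) _
          (mul_mem (mul_mem hx3 hy3) (inv_mem hx3)) _ (inv_mem hy1) _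
          (inv_mem hy2) _ (inv_mem hy3)]
    · rw [map_commutatorElement, map_commutatorElement, hs, ht]
    · rw [map_commutatorElement, map_commutatorElement, hx1', hy1']
    · rw [map_commutatorElement, map_commutatorElement, hx2', hy2']
    · rw [map_commutatorElement, map_commutatorElement, hx3', hy3']
  | one =>
    exact ⟨1, 1, one_mem _, 1, one_mem _, 1, one_mem _, by simp, by simp, by simp, by simp,
      by simp⟩
  | mul g g' _ _ hg hg' =>
    obtain ⟨a, v, hv, e, he, f, hf, rfl, h1, h2, h3, h4⟩ := hg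
    obtain ⟨a', v', hv', e', he', f', hf', rfl, h1', h2', h3', h4'⟩ := hg'
    refine ⟨a * a', v * v', mul_mem hv hv', e * e', mul_mem he he', f * f', mul_mem hf hf',
      hmul v hv e he f hf v' hv' e' he' f' hf', ?_, ?_, ?_, ?_⟩
    · rw [map_mul, h1, h1', map_mul]
    · rw [map_mul, h2, h2', map_mul]
    · rw [map_mul, h3, h3', map_mul]
    · rw [map_mul, h4, h4', map_mul]
  | inv g _ hg =>
    obtain ⟨a, v, hv, e, he, f, hf, rfl, h1, h2, h3, h4⟩ := hg
    refine ⟨a⁻¹, v⁻¹, inv_mem hv, e⁻¹, inv_mem he, f⁻¹, inv_mem hf,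
      hinv v hv e he f hf, ?_, ?_, ?_, ?_⟩
    · rw [map_inv, h1, map_inv]
    · rw [map_inv, h2, map_inv]
    · rw [map_inv, h3, map_inv]
    · rw [map_inv, h4, map_inv]

end Vale.Agent.P196.H700
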