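import Vale.Agent.P196.H700.Bounded
import Vale.Agent.P196.Cut.Letter

/-!
# P196: splitting of lifted words
-/

namespace Vale.Agent.P196.H700

open Equiv Vale.Agent.P196.S0 Vale.Agent.P196.H513 Vale.Agent.P196.Cut

section

variable {ι : Type*}

theorem ltr_eq_X (σ : ι → Z2) (E : Set Z2) (a : Perm ι) : ltr σ E a = X σ E a := rfl

theorem ltr_inter_congr {σ : ι → Z2} {E D : Set Z2} {a a' : Perm ι}
    (h : ltr σ E a = ltr σ E a') : ltr σ (E ∩ D) a = ltr σ (E ∩ D) a' := by
  refine Equiv.ext fun ⟨u, f⟩ => ?_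
  by_cases hu : u - σ f ∈ E ∩ D
  · have h1 := congrArg (fun g : Perm (Z2 × ι) => (g (u, f)).2) h
    simp only [ltr_apply_mem hu.1] at h1
    rw [ltr_apply_mem hu, ltr_apply_mem hu, h1]
  · rw [ltr_apply_notMem hu, ltr_apply_notMem hu]

end

variable {ι : Type*} [Fintype ι] [DecidableEq ι]

/-- The group of a letter with restricted base set. -/
noncomputable def LG (l : Letter ι) (D : Set Z2) : Subgroup (Perm (Z2 × ι)) :=
  (alternatingGroup ι).map (ltr l.σ (l.E ∩ D))

theorem mem_LG {l : Letter ι} {D : Set Z2} {g : Perm (Z2 × ι)} :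
    g ∈ LG l D ↔ ∃ a ∈ alternatingGroup ι, X l.σ (l.E ∩ D) a = g := Iff.rfl

/-- `g` is a good lift of the letter `l`. -/
def Good {E : Type*} [Group E] (π : E →* Perm (Z2 × ι)) (LS : Set (Set Z2)) (g : E)
    (l : Letter ι) : Prop :=
  l.E ∈ LS ∧ l.a ∈ alternatingGroup ι ∧
    g ∈ lift π ((alternatingGroup ι).map (ltr l.σ l.E)) ∧ π g = X l.σ l.E l.a

variable {E : Type*} [Group E] {π : E →* Perm (Z2 × ι)} {LS : Set (Set Z2)}

/-- Splitting of one lifted letter. -/
theorem split_letter (hι : 5 ≤ Fintype.card ι) (hK : π.ker ≤ Subgroup.center E) {g : E}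
    {l : Letter ι} (hg : Good π LS g l) (D1 D2 D3 : Set Z2)
    (hd12 : Disjoint D1 D2) (hd13 : Disjoint D1 D3) (hd23 : Disjoint D2 D3)
    (hD : D1 ∪ D2 ∪ D3 = Set.univ)
    (h1 : LG l D1 ≤ π.range) (h2 : LG l D2 ≤ π.range) (h3 : LG l D3 ≤ π.range)
    (h12 : ∀ x ∈ LG l D1, ∀ y ∈ LG l D2, x * y = y * x)
    (h13 : ∀ x ∈ LG l D1, ∀ y ∈ LG l D3, x * y = y * x)
    (h23 : ∀ x ∈ LG l D2, ∀ y ∈ LG l D3, x * y = y * x) :
    ∃ v ∈ lift π (LG l D1), ∃ e ∈ lift π (LG l D2), ∃ f ∈ lift π (LG l D3),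
      g = v * e * f ∧ π v = X l.σ (l.E ∩ D1) l.a ∧ π e = X l.σ (l.E ∩ D2) l.a ∧
        π f = X l.σ (l.E ∩ D3) l.a := by
  obtain ⟨-, ha, hgl, hgπ⟩ := hg
  have hr : ∀ E' : Set Z2, ((ltr l.σ E').comp (alternatingGroup ι).subtype).range =
      (alternatingGroup ι).map (ltr l.σ E') := by
    intro E'
    rw [MonoidHom.range_comp, Subgroup.range_subtype]
  have hA : commutator (alternatingGroup ι) = ⊤ :=
    commutator_alternatingGroup_eq_top (by rwa [Nat.card_eq_fintype_card])
  obtain ⟨a, v, hv, e, he, f, hf, hgv, k0, k1, k2, k3⟩ := exists_split hK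
    ((ltr l.σ l.E).comp (alternatingGroup ι).subtype)
    ((ltr l.σ (l.E ∩ D1)).comp (alternatingGroup ι).subtype)
    ((ltr l.σ (l.E ∩ D2)).comp (alternatingGroup ι).subtype)
    ((ltr l.σ (l.E ∩ D3)).comp (alternatingGroup ι).subtype)
    (fun a => ltr_split l.σ l.E D1 D2 D3 hd12 hd13 hd23 hD a)
    (fun a b => h12 _ ⟨a, a.2, rfl⟩ _ ⟨b, b.2, rfl⟩)
    (fun a b => h13 _ ⟨a, a.2, rfl⟩ _ ⟨b, b.2, rfl⟩)
    (fun a b => h23 _ ⟨a, a.2, rfl⟩ _ ⟨b, b.2, rfl⟩)
    (by rw [hr]; exact h1) (by rw [hr]; exact h2) (by rw [hr]; exact h3) hA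
    (g := g) (by rw [hr]; exact hgl)
  rw [hr] at hv he hf
  have hE : ltr l.σ l.E (a : Perm ι) = ltr l.σ l.E l.a := by
    rw [ltr_eq_X l.σ l.E l.a, ← hgπ, k0]
    rfl
  refine ⟨v, hv, e, he, f, hf, hgv, ?_, ?_, ?_⟩
  · rw [k1, ← ltr_eq_X]
    exact ltr_inter_congr hE
  · rw [k2, ← ltr_eq_X]
    exact ltr_inter_congr hE
  · rw [k3, ← ltr_eq_X]
    exact ltr_inter_congr hE

/-- Splitting of a lifted word. -/
theorem split_word (hι : 5 ≤ Fintype.card ι) (hK : π.ker ≤ Subgroup.center E)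
    {V R F : Subgroup (Perm (Z2 × ι))} (hV : V ≤ π.range) (hR : R ≤ π.range) (hF : F ≤ π.range) :
    ∀ (w : List (E × Letter ι)), (∀ x ∈ w, Good π LS x.1 x.2) →
    ∀ DV DR DF : ℕ → Set Z2,
    (∀ i, Disjoint (DV i) (DR i) ∧ Disjoint (DV i) (DF i) ∧ Disjoint (DR i) (DF i) ∧
      DV i ∪ DR i ∪ DF i = Set.univ) →
    (∀ i (hi : i < (w.map Prod.snd).length), LG (w.map Prod.snd)[i] (DV i) ≤ V ∧
      LG (w.map Prod.snd)[i] (DR i) ≤ R ∧ LG (w.map Prod.snd)[i] (DF i) ≤ F) →
    (∀ i k (hi : i < (w.map Prod.snd).length) (hk : k < (w.map Prod.snd).length), k ≤ i →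
      (∀ x ∈ LG (w.map Prod.snd)[i] (DV i), ∀ y ∈ LG (w.map Prod.snd)[k] (DR k),
        x * y = y * x) ∧
      (∀ x ∈ LG (w.map Prod.snd)[i] (DV i), ∀ y ∈ LG (w.map Prod.snd)[k] (DF k),
        x * y = y * x) ∧
      (∀ x ∈ LG (w.map Prod.snd)[i] (DR i), ∀ y ∈ LG (w.map Prod.snd)[k] (DF k),
        x * y = y * x)) →
    ∃ v ∈ lift π V, ∃ e ∈ lift π R, ∃ f ∈ lift π F,
      (w.map Prod.fst).prod = v * e * f ∧ π v = wd (w.map Prod.snd) DV ∧
      π e = wd (w.map Prod.snd) DR ∧ π f = wd (w.map Prod.snd) DF ∧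
      (∀ y : E, (∀ i (hi : i < (w.map Prod.snd).length),
        ∀ x ∈ lift π (LG (w.map Prod.snd)[i] (DV i)), x * y = y * x) → v * y = y * v) ∧
      (∀ y : E, (∀ i (hi : i < (w.map Prod.snd).length),
        ∀ x ∈ lift π (LG (w.map Prod.snd)[i] (DR i)), x * y = y * x) → e * y = y * e) := by
  intro w
  induction w with
  | nil =>
    intro _ DV DR DF _ _ _
    refine ⟨1, one_mem _, 1, one_mem _, 1, one_mem _, by simp, by simp, by simp, by simp,
      by simp, by simp⟩
  | cons x w ih =>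
    obtain ⟨g, l⟩ := x
    intro hgood DV DR DF hpart hmem hcomm
    have hg : Good π LS g l := hgood (g, l) (by simp)
    have hmem0 := hmem 0 (by simp)
    simp only [List.map_cons, List.getElem_cons_zero] at hmem0
    have hcomm0 := hcomm 0 0 (by simp) (by simp) le_rfl
    simp only [List.map_cons, List.getElem_cons_zero] at hcomm0
    obtain ⟨hp12, hp13, hp23, hpU⟩ := hpart 0
    obtain ⟨v0, hv0, e0, he0, f0, hf0, hgv, k1, k2, k3⟩ := split_letter hι hK hg
      (DV 0) (DR 0) (DF 0) hp12 hp13 hp23 hpU (hmem0.1.trans hV) (hmem0.2.1.trans hR)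
      (hmem0.2.2.trans hF) hcomm0.1 hcomm0.2.1 hcomm0.2.2
    obtain ⟨v, hv, e, he, f, hf, hw, m1, m2, m3, cV, cR⟩ := ih
      (fun x hx => hgood x (List.mem_cons_of_mem _ hx))
      (fun i => DV (i + 1)) (fun i => DR (i + 1)) (fun i => DF (i + 1))
      (fun i => hpart (i + 1))
      (fun i hi => by
        have := hmem (i + 1) (by simpa using hi)
        simpa only [List.map_cons, List.getElem_cons_succ] using this)
      (fun i k hi hk hki => by
        have := hcomm (i + 1) (k + 1) (by simpa using hi) (by simpa using hk) (by omega)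
        simpa only [List.map_cons, List.getElem_cons_succ] using this)
    -- commutations of the tail with the head
    have c1 : v * e0 = e0 * v := by
      apply cV
      intro i hi x hx
      have := (hcomm (i + 1) 0 (by simpa using hi) (by simp) (by omega)).1
      simp only [List.map_cons, List.getElem_cons_succ, List.getElem_cons_zero] at this
      exact lift_comm hK this hx he0
    have c2 : v * f0 = f0 * v := by
      apply cV
      intro i hi x hx
      have := (hcomm (i + 1) 0 (by simpa using hi) (by simp) (by omega)).2.1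
      simp only [List.map_cons, List.getElem_cons_succ, List.getElem_cons_zero] at this
      exact lift_comm hK this hx hf0
    have c3 : e * f0 = f0 * e := by
      apply cR
      intro i hi x hx
      have := (hcomm (i + 1) 0 (by simpa using hi) (by simp) (by omega)).2.2
      simp only [List.map_cons, List.getElem_cons_succ, List.getElem_cons_zero] at this
      exact lift_comm hK this hx hf0
    refine ⟨v0 * v, mul_mem (lift_mono hmem0.1 hv0) hv, e0 * e,
      mul_mem (lift_mono hmem0.2.1 he0) he, f0 * f, mul_mem (lift_mono hmem0.2.2 hf0) hf,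
      ?_, ?_, ?_, ?_, ?_, ?_⟩
    · rw [List.map_cons, List.prod_cons, hw, hgv]
      calc v0 * e0 * f0 * (v * e * f) = v0 * e0 * (f0 * v) * e * f := by group
        _ = v0 * e0 * (v * f0) * e * f := by rw [c2]
        _ = v0 * (e0 * v) * (f0 * e) * f := by group
        _ = v0 * (v * e0) * (e * f0) * f := by rw [c1, c3]
        _ = _ := by group
    · rw [map_mul, k1, m1, List.map_cons, wd_cons]
    · rw [map_mul, k2, m2, List.map_cons, wd_cons]
    · rw [map_mul, k3, m3, List.map_cons, wd_cons]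
    · intro y hy
      have h0 := hy 0 (by simp) v0 (by simpa only [List.map_cons, List.getElem_cons_zero] using hv0)
      have h1 : v * y = y * v := cV y (fun i hi x hx => hy (i + 1) (by simpa using hi) x
        (by simpa only [List.map_cons, List.getElem_cons_succ] using hx))
      rw [mul_assoc, h1, ← mul_assoc, h0, mul_assoc]
    · intro y hy
      have h0 := hy 0 (by simp) e0 (by simpa only [List.map_cons, List.getElem_cons_zero] using he0)
      have h1 : e * y = y * e := cR y (fun i hi x hx => hy (i + 1) (by simpa using hi) x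
        (by simpa only [List.map_cons, List.getElem_cons_succ] using hx))
      rw [mul_assoc, h1, ← mul_assoc, h0, mul_assoc]

end Vale.Agent.P196.H700
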